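import Vale.Agent.P353.AN.COV.Stmt

/-! # P353, all `N`, block COV: COV8 assembly (helper155) -/

open MeasureTheory Filter Topology Matrix
open scoped ContDiff

namespace Vale.Agent.P353.Z.ACov

universe u

variable {N d dh dm ds dz k : ℕ}

namespace C155

lemma rT_one (T : Fin d → Matrix (Fin N) (Fin N) ℂ) : rT T 1 = T := by
  funext A
  unfold rT
  rw [Finset.sum_eq_single A]
  · simp
  · intro B _ hB
    simp [Matrix.one_apply, hB.symm]
  · intro h
    exact absurd (Finset.mem_univ _) h

lemma mx_zero (T : Fin d → Matrix (Fin N) (Fin N) ℂ) (i : Fin 9) : mx T 0 i = 0 := by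
  unfold mx
  simp

lemma su_star (V : BFSS.SU N) : V.val.conjTranspose * V.val = 1 := by
  have h := (Matrix.mem_specialUnitaryGroup_iff.1 V.property).1
  exact (Matrix.mem_unitaryGroup_iff'.1 h)

lemma su_star' (V : BFSS.SU N) : V.val * V.val.conjTranspose = 1 := by
  have h := (Matrix.mem_specialUnitaryGroup_iff.1 V.property).1
  exact (Matrix.mem_unitaryGroup_iff.1 h)

lemma conj_inj (V : BFSS.SU N) {X Z : Matrix (Fin N) (Fin N) ℂ}
    (h : V.val * X * V.val.conjTranspose = V.val * Z * V.val.conjTranspose) : X = Z := by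
  have h1 : V.val.conjTranspose * (V.val * X * V.val.conjTranspose) * V.val =
      V.val.conjTranspose * (V.val * Z * V.val.conjTranspose) * V.val := by rw [h]
  have h2 : ∀ W : Matrix (Fin N) (Fin N) ℂ, V.val.conjTranspose * (V.val * W * V.val.conjTranspose) * V.val = W := by
    intro W
    rw [show V.val.conjTranspose * (V.val * W * V.val.conjTranspose) * V.val =
      (V.val.conjTranspose * V.val) * W * (V.val.conjTranspose * V.val) by simp only [Matrix.mul_assoc]]
    rw [su_star, Matrix.one_mul, Matrix.mul_one]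
  rwa [h2, h2] at h1

lemma trace_conj (V : BFSS.SU N) (X : Matrix (Fin N) (Fin N) ℂ) :
    (V.val * X * V.val.conjTranspose).trace = X.trace := by
  rw [Matrix.trace_mul_cycle, su_star, Matrix.one_mul]

end C155

open C155

theorem covOf {F : Type u} [NormedAddCommGroup F] [InnerProductSpace ℂ F] (M : BFSS.Model N d F) : CovOfStmt M := by
  intro hMx hPt hDiag hV hPerm hComb hSpec hVal
  constructor
  · intro hN2 S hRep Y hY0 hVY
    have hN : 0 < N := by omega
    obtain ⟨hBas, hAct, hRot, hHer⟩ := hMx hN S hRep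
    have hcomm := hV S N M.T hBas Y hVY
    obtain ⟨V, y, hy⟩ := hDiag N hN (mx M.T Y) (fun i => (hHer Y i).1) hcomm
    obtain ⟨hc1, hc2, hc3, hc4, hc5, -⟩ := hComb N hN
    obtain ⟨p, hp⟩ := hc1 (Fin 9 → ℝ) y
    -- traces
    have htr : ∀ i, ∑ q, y q i = 0 := by
      intro i
      have h1 := congrArg Matrix.trace (hy i)
      rw [trace_conj, (hHer Y i).2, Matrix.trace_diagonal] at h1
      have h2 : ((∑ q, y q i : ℝ) : ℂ) = 0 := by
        push_cast
        exact h1.symm
      exact_mod_cast h2
    refine ⟨p, ?_, ?_⟩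
    · by_contra hlt
      push Not at hlt
      rw [hp] at hlt
      have hconst := hc5 (Fin 9 → ℝ) y hlt
      apply hY0
      obtain ⟨-, -, hinj⟩ := hRot 1 (by simp) 1 (by simp)
      refine hinj Y 0 fun i => ?_
      rw [rT_one, mx_zero]
      have hz : ∀ q, y q i = 0 := by
        intro q
        have h1 := htr i
        rw [Finset.sum_congr rfl fun q' _ => congrFun (hconst q' q) i, Finset.sum_const, Finset.card_univ,
          Fintype.card_fin, nsmul_eq_mul] at h1
        rcases mul_eq_zero.1 h1 with h2 | h2
        · exact absurd (Nat.cast_eq_zero.1 h2) hN.ne'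
        · exact h2
      refine conj_inj V ?_
      rw [hy i, Matrix.mul_zero, Matrix.zero_mul]
      ext a b
      by_cases hab : a = b
      · subst hab
        simp [hz]
      · simp [Matrix.diagonal_apply_ne _ hab]
    · intro k dh dm ds dz n O hO φ ψ fr hn
      rw [hp] at hn
      obtain ⟨π, hπ⟩ := hc2 (Fin 9 → ℝ) y k n fr.E fr.pos hn
      obtain ⟨P, hP⟩ := hPerm N hN π⁻¹
      obtain ⟨hBas', hmx', hinj'⟩ := hRot 1 (by simp) O hO
      obtain ⟨-, hv2, -, -, -⟩ := hVal k dh dm ds dz n (rT M.T O) φ ψ _ fr hBas'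
      -- values on the blocks
      set v : Fin 9 → Fin k → ℝ := fun i a => y (π (fr.E ⟨a, ⟨0, fr.pos a⟩⟩)) i with hv
      have hyv : ∀ q i, y (π q) i = v i (fr.E.symm q).1 := by
        intro q i
        have h1 := (hπ (fr.E.symm q) ⟨(fr.E.symm q).1, ⟨0, fr.pos _⟩⟩).2 rfl
        rw [Equiv.apply_symm_apply] at h1
        exact congrFun h1 i
      have hsum : ∀ i, ∑ a, (n a : ℝ) * v i a = 0 := by
        intro i
        have h1 : ∑ q, y (π q) i = 0 := by
          rw [Equiv.sum_comp π fun q => y q i]
          exact htr i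
        have h2 : ∑ q, y (π q) i = ∑ s : Σ a, Fin (n a), v i s.1 := by
          rw [← Equiv.sum_comp fr.E]
          refine Finset.sum_congr rfl fun s _ => ?_
          rw [hyv, Equiv.symm_apply_apply]
        rw [h2, Fintype.sum_sigma] at h1
        rw [← h1]
        refine Finset.sum_congr rfl fun a _ => ?_
        symm
        change ∑ _ : Fin (n a), v i a = _
        rw [Finset.sum_const, Finset.card_univ, Fintype.card_fin, nsmul_eq_mul]
      obtain ⟨η, hη⟩ := hv2 v hsum
      refine ⟨P * V, η, ?_, ?_⟩
      · intro a b hab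
        by_contra hc
        push Not at hc
        apply hab
        have h1 : y (π (fr.E ⟨a, ⟨0, fr.pos a⟩⟩)) = y (π (fr.E ⟨b, ⟨0, fr.pos b⟩⟩)) := by
          funext i
          have := hc i
          rw [hη, hη] at this
          exact this
        exact (hπ _ _).1 h1
      · refine hinj' _ _ fun i => ?_
        rw [hmx', hAct, hPt]
        have h1 : (P * V).val * mx M.T Y i * (P * V).val.conjTranspose =
            P.val * (V.val * mx M.T Y i * V.val.conjTranspose) * P.val.conjTranspose := by
          have h2 : (P * V).val = P.val * V.val := rfl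
          rw [h2, Matrix.conjTranspose_mul]
          simp only [Matrix.mul_assoc]
        rw [h1, hy i]
        have h3 := hP fun q => ((y (π q) i : ℝ) : ℂ)
        have h4 : (fun q => ((y (π (π⁻¹ q)) i : ℝ) : ℂ)) = fun q => ((y q i : ℝ) : ℂ) := by
          funext q
          simp
        rw [h4] at h3
        rw [h3]
        congr 1
        funext q
        rw [hyv, hη]
  · intro hN2 S hRep k dh dm ds dz n O hO φ ψ fr η hD k' dh' dm' ds' dz' n' O' hO' φ' ψ' fr' η' hD' U Y h1 h2
    have hN : 0 < N := by omega
    obtain ⟨hBas, hAct, hRot, hHer⟩ := hMx hN S hRep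
    obtain ⟨-, hmx, -⟩ := hRot 1 (by simp) O hO
    obtain ⟨-, hmx', -⟩ := hRot 1 (by simp) O' hO'
    obtain ⟨hc1, hc2, hc3, hc4, hc5, -⟩ := hComb N hN
    have e1 : ∀ i, mx M.T Y i = Matrix.diagonal fun q => ((fr.val η i (fr.E.symm q).1 : ℝ) : ℂ) := by
      intro i
      rw [← hmx Y i, h1, hPt]
    have e2 : ∀ i, mx M.T (M.act U Y) i = Matrix.diagonal fun q => ((fr'.val η' i (fr'.E.symm q).1 : ℝ) : ℂ) := by
      intro i
      rw [← hmx' _ i, h2, hPt]
    have h3 := hSpec N U.val (su_star U) (su_star' U) (fun q i => fr.val η i (fr.E.symm q).1)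
      (fun q i => fr'.val η' i (fr'.E.symm q).1) (fun i => by rw [← e1 i, ← e2 i, hAct])
    have h4 := hc3 (Fin 9 → ℝ) (fun q i => fr.val η i (fr.E.symm q).1) k n fr.E fr.pos (by
      intro s t
      constructor
      · intro h
        by_contra hst
        obtain ⟨i, hi⟩ := hD _ _ hst
        apply hi
        have := congrFun h i
        simpa using this
      · intro h
        funext i
        simp [h])
    have h5 := hc3 (Fin 9 → ℝ) (fun q i => fr'.val η' i (fr'.E.symm q).1) k' n' fr'.E fr'.pos (by
      intro s t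
      constructor
      · intro h
        by_contra hst
        obtain ⟨i, hi⟩ := hD' _ _ hst
        apply hi
        have := congrFun h i
        simpa using this
      · intro h
        funext i
        simp [h])
    rw [← h4, ← h5]
    convert h3

end Vale.Agent.P353.Z.ACov
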