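import Mathlib

/-! # P353, all `N`, block COV: fibre sizes and partitions, conjuncts (4), (5), (6) of `CombStmt` -/

open Finset

namespace Vale.Agent.P353.Z.ACov

theorem comb4_aux (s : Multiset ℕ) : ∃ n : Fin (Multiset.card s) → ℕ, Finset.univ.val.map n = s := by
  induction s using Quot.inductionOn with
  | h l =>
    refine ⟨fun a : Fin l.length => l.get a, ?_⟩
    show Finset.univ.val.map (fun a : Fin l.length => l.get a) = (l : Multiset ℕ)
    rw [Fin.univ_val_map]
    congr 1
    exact List.ofFn_get l

/-- conjunct (4) -/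
theorem comb4 (N : ℕ) (p : Nat.Partition N) :
    ∃ n : Fin (Multiset.card p.parts) → ℕ, Finset.univ.val.map n = p.parts ∧ (∀ a, 1 ≤ n a) ∧ ∑ a, n a = N := by
  obtain ⟨n, hn⟩ := comb4_aux p.parts
  refine ⟨n, hn, ?_, ?_⟩
  · intro a
    have h2 : n a ∈ Finset.univ.val.map n := Multiset.mem_map_of_mem n (Finset.mem_univ a)
    rw [hn] at h2
    exact p.parts_pos h2
  · have h2 : ∑ a, n a = (Finset.univ.val.map n).sum := rfl
    rw [h2, hn, p.parts_sum]

/-- conjunct (5) -/
theorem comb5 (N : ℕ) (X : Type) [DecidableEq X] (y : Fin N → X)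
    (h : Multiset.card ((Finset.univ.image y).val.map fun a => (Finset.univ.filter fun p => y p = a).card) < 2) :
    ∀ p q, y p = y q := by
  rw [Multiset.card_map] at h
  have h1 : (Finset.univ.image y).card ≤ 1 := by
    have : (Finset.univ.image y).card = Multiset.card (Finset.univ.image y).val := rfl
    omega
  intro p q
  exact Finset.card_le_one.1 h1 _ (Finset.mem_image_of_mem y (Finset.mem_univ p)) _
    (Finset.mem_image_of_mem y (Finset.mem_univ q))

/-- conjunct (6) -/
theorem comb6 (N : ℕ) (hN : 0 < N) :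
    ∃ p₀ : Nat.Partition N, Multiset.card p₀.parts = 1 ∧ ∀ p : Nat.Partition N, p ≠ p₀ ↔ 2 ≤ Multiset.card p.parts := by
  have hp : ∀ p : Nat.Partition N, Multiset.card p.parts ≠ 0 := by
    intro p h
    rw [Multiset.card_eq_zero] at h
    have := p.parts_sum
    rw [h, Multiset.sum_zero] at this
    omega
  let p₀ : Nat.Partition N := ⟨{N}, fun {i} hi => by
    rw [Multiset.mem_singleton] at hi
    omega, by simp⟩
  have h0 : p₀.parts = {N} := rfl
  refine ⟨p₀, by rw [h0, Multiset.card_singleton], fun p => ?_⟩
  constructor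
  · intro h
    by_contra hc
    apply h
    have h1 : Multiset.card p.parts = 1 := by
      have := hp p
      omega
    obtain ⟨a, ha⟩ := Multiset.card_eq_one.1 h1
    have h2 := p.parts_sum
    rw [ha, Multiset.sum_singleton] at h2
    apply Nat.Partition.ext
    rw [h0, ha, h2]
  · intro h hc
    rw [hc, h0, Multiset.card_singleton] at h
    omega

end Vale.Agent.P353.Z.ACov
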