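import Vale.Agent.P353.AN.COV.Stmt
import Vale.Agent.P353.AN.COV.Comb456

/-! # P353, all `N`, block COV: COV6, fibre sizes and partitions (helper925, with helper808, helper763) -/

open MeasureTheory Filter Topology Matrix
open scoped ContDiff

namespace Vale.Agent.P353.Z.ACov

/-- conjunct (1) -/
theorem comb1 (N : ℕ) (X : Type) [DecidableEq X] (y : Fin N → X) : ∃ p : Nat.Partition N, p.parts = fsz y := by
  refine ⟨⟨fsz y, ?_, ?_⟩, rfl⟩
  · intro i hi
    obtain ⟨a, ha, rfl⟩ := Multiset.mem_map.1 hi
    obtain ⟨p, -, hp⟩ := Finset.mem_image.1 (show a ∈ Finset.univ.image y from ha)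
    exact Finset.card_pos.2 ⟨p, Finset.mem_filter.2 ⟨Finset.mem_univ _, hp⟩⟩
  · have h1 := Finset.card_eq_sum_card_image y (Finset.univ : Finset (Fin N))
    rw [Finset.card_univ, Fintype.card_fin] at h1
    exact h1.symm

/-- conjunct (3) -/
theorem comb3 (N : ℕ) (X : Type) [DecidableEq X] (y : Fin N → X) (k : ℕ) (n : Fin k → ℕ) (E : (Σ a, Fin (n a)) ≃ Fin N)
    (hn : ∀ a, 1 ≤ n a) (h : ∀ s t : Σ a, Fin (n a), y (E s) = y (E t) ↔ s.1 = t.1) :
    fsz y = Finset.univ.val.map n := by
  have hc : ∀ a : Fin k, (Finset.univ.filter fun p => y p = y (E ⟨a, ⟨0, hn a⟩⟩)).card = n a := by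
    intro a
    have h1 : (Finset.univ.filter fun p => y p = y (E ⟨a, ⟨0, hn a⟩⟩)) =
        (Finset.univ : Finset (Fin (n a))).map ⟨fun i => E ⟨a, i⟩, fun i j hij => by
          have h2 := E.injective hij
          simp only [Sigma.mk.injEq, heq_eq_eq, true_and] at h2
          exact h2⟩ := by
      ext p
      simp only [Finset.mem_filter, Finset.mem_univ, true_and, Finset.mem_map]
      constructor
      · intro hp
        obtain ⟨⟨b, i⟩, rfl⟩ := E.surjective p
        obtain rfl : b = a := (h _ _).1 hp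
        exact ⟨i, rfl⟩
      · rintro ⟨i, rfl⟩
        exact (h _ _).2 rfl
    rw [h1, Finset.card_map, Finset.card_univ, Fintype.card_fin]
  have hinj : Function.Injective fun a : Fin k => y (E ⟨a, ⟨0, hn a⟩⟩) := fun a b hab => (h _ _).1 hab
  have himg : Finset.univ.image y = (Finset.univ : Finset (Fin k)).map ⟨fun a => y (E ⟨a, ⟨0, hn a⟩⟩), hinj⟩ := by
    ext v
    simp only [Finset.mem_image, Finset.mem_univ, true_and, Finset.mem_map, Function.Embedding.coeFn_mk]
    constructor
    · rintro ⟨p, rfl⟩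
      obtain ⟨⟨b, i⟩, rfl⟩ := E.surjective p
      exact ⟨b, (h _ _).2 rfl⟩
    · rintro ⟨a, rfl⟩
      exact ⟨_, rfl⟩
  unfold fsz
  rw [himg, Finset.map_val, Multiset.map_map]
  refine Multiset.map_congr rfl fun a _ => ?_
  exact hc a

/-- equal fibre sizes: a bijection -/
theorem comb925_equiv {α β γ : Type*} [Fintype α] [Fintype β] [DecidableEq γ] (f : α → γ) (g : β → γ)
    (h : ∀ c, (Finset.univ.filter fun a => f a = c).card = (Finset.univ.filter fun b => g b = c).card) :
    ∃ e : α ≃ β, ∀ a, g (e a) = f a := by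
  have h1 : ∀ c, Fintype.card {a // f a = c} = Fintype.card {b // g b = c} := by
    intro c
    rw [Fintype.card_subtype, Fintype.card_subtype, h c]
  exact ⟨Equiv.ofFiberEquiv fun c => Fintype.equivOfCardEq (h1 c), fun a => Equiv.ofFiberEquiv_map _ a⟩

theorem comb925_count {α : Type*} [Fintype α] (f : α → ℕ) (m : ℕ) :
    Multiset.count m (Finset.univ.val.map f) = (Finset.univ.filter fun a => f a = m).card := by
  rw [Multiset.count_map]
  show (Finset.univ.filter fun a => m = f a).card = _
  congr 1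
  ext a
  simp [eq_comm]

/-- conjunct (2) -/
theorem comb2B (N : ℕ) (X : Type) [DecidableEq X] (y : Fin N → X) (k : ℕ) (n : Fin k → ℕ) (E : (Σ a, Fin (n a)) ≃ Fin N)
    (h : Finset.univ.val.map n = fsz y) :
    ∃ π : Equiv.Perm (Fin N), ∀ s t : Σ a, Fin (n a), y (π (E s)) = y (π (E t)) ↔ s.1 = t.1 := by
  -- bijection of the index set with the image
  obtain ⟨β, hβ⟩ : ∃ β : Fin k ≃ ↥(Finset.univ.image y), ∀ a, (Finset.univ.filter fun p => y p = (β a).1).card = n a := by
    refine comb925_equiv n (fun x : ↥(Finset.univ.image y) => (Finset.univ.filter fun p => y p = x.1).card) fun m => ?_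
    rw [← comb925_count, ← comb925_count, h, fsz]
    congr 1
    exact (Multiset.attach_map_val' _ _).symm
  -- bijection of the points
  obtain ⟨θ, hθ⟩ : ∃ θ : (Σ a, Fin (n a)) ≃ Fin N, ∀ s, y (θ s) = (β s.1).1 := by
    refine comb925_equiv (fun s : Σ a, Fin (n a) => (β s.1).1) y fun x => ?_
    by_cases hx : x ∈ Finset.univ.image y
    · obtain ⟨a, ha⟩ := β.surjective ⟨x, hx⟩
      have hax : (β a).1 = x := by rw [ha]
      have h8 : (Finset.univ.filter fun s : Σ a, Fin (n a) => (β s.1).1 = x) =
          (Finset.univ : Finset (Fin (n a))).map ⟨fun i => (⟨a, i⟩ : Σ a, Fin (n a)), fun i j hij => by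
            simp only [Sigma.mk.injEq, heq_eq_eq, true_and] at hij
            exact hij⟩ := by
        ext s
        simp only [Finset.mem_filter, Finset.mem_univ, true_and, Finset.mem_map]
        constructor
        · intro hs
          obtain ⟨b, i⟩ := s
          obtain rfl : b = a := β.injective (Subtype.ext (hs.trans hax.symm))
          exact ⟨i, rfl⟩
        · rintro ⟨i, rfl⟩
          exact hax
      rw [h8, Finset.card_map, Finset.card_univ, Fintype.card_fin, ← hβ a, hax]
    · have e1 : (Finset.univ.filter fun s : Σ a, Fin (n a) => (β s.1).1 = x) = ∅ :=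
        Finset.filter_false_of_mem fun s _ hs => hx (hs ▸ (β s.1).2)
      have e2 : (Finset.univ.filter fun p => y p = x) = ∅ :=
        Finset.filter_false_of_mem fun p _ hp => hx (hp ▸ Finset.mem_image_of_mem y (Finset.mem_univ _))
      rw [e1, e2, Finset.card_empty, Finset.card_empty]
  refine ⟨E.symm.trans θ, fun s t => ?_⟩
  simp only [Equiv.trans_apply, Equiv.symm_apply_apply, hθ]
  exact ⟨fun h => β.injective (Subtype.ext h), fun h => by rw [h]⟩

/-- **COV6** -/
theorem combS : CombStmt := fun N hN =>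
  ⟨fun X _ y => comb1 N X y, fun X _ y k n E _ h => comb2B N X y k n E h, fun X _ y k n E hn h => comb3 N X y k n E hn h,
    fun p => comb4 N p, fun X _ y h => comb5 N X y h, comb6 N hN⟩

end Vale.Agent.P353.Z.ACov
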