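import Vale.Agent.P353.AN.COV.Stmt

/-! # P353, all `N`, block COV: second conjunct of `CombStmt` (helper763) -/

namespace Vale.Agent.P353.Z.ACov

open Finset

private theorem perm763 {k : ℕ} (n c : Fin k → ℕ) (h : Finset.univ.val.map n = Finset.univ.val.map c) :
    ∃ σ : Equiv.Perm (Fin k), n = c ∘ σ := by
  rw [Fin.univ_val_map, Fin.univ_val_map, Multiset.coe_eq_coe] at h
  have h1 : n ∘ Tuple.sort n = c ∘ Tuple.sort c :=
    List.ofFn_injective ((((Tuple.sort n).ofFn_comp_perm n).trans (h.trans ((Tuple.sort c).ofFn_comp_perm c).symm)).eq_of_pairwise'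
      (Tuple.monotone_sort n).sortedLE_ofFn.pairwise (Tuple.monotone_sort c).sortedLE_ofFn.pairwise)
  refine ⟨(Tuple.sort n).symm.trans (Tuple.sort c), ?_⟩
  funext a
  have := congrFun h1 ((Tuple.sort n).symm a)
  simpa using this

/-- the image -/
private abbrev im763 {N : ℕ} {X : Type} [DecidableEq X] (y : Fin N → X) : Finset X := Finset.image y Finset.univ

/-- **COV6** (2) -/
theorem comb2 (N : ℕ) (_hN : 0 < N) : ∀ (X : Type) [DecidableEq X] (y : Fin N → X) (k : ℕ) (n : Fin k → ℕ)
    (E : (Σ a, Fin (n a)) ≃ Fin N), (∀ a, 1 ≤ n a) → Finset.univ.val.map n = fsz y →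
    ∃ π : Equiv.Perm (Fin N), ∀ s t : Σ a, Fin (n a), y (π (E s)) = y (π (E t)) ↔ s.1 = t.1 := by
  intro X _ y k n E _ hn
  have hcard : Fintype.card (Fin k) = Fintype.card {x // x ∈ im763 y} := by
    have := congrArg Multiset.card hn
    rw [Multiset.card_map, fsz, Multiset.card_map, Finset.card_val, Finset.card_val, Finset.card_univ] at this
    rw [Fintype.card_coe]
    exact this
  let e0 : Fin k ≃ {x // x ∈ im763 y} := Fintype.equivOfCardEq hcard
  have hmap : Finset.univ.val.map n =
      Finset.univ.val.map (fun a : Fin k => (Finset.univ.filter fun p => y p = (e0 a : X)).card) := by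
    rw [hn, fsz]
    have h1 : (Finset.univ.val.map fun a : Fin k => (Finset.univ.filter fun p => y p = (e0 a : X)).card) =
        ((Finset.univ.val.map e0).map fun x : {x // x ∈ im763 y} =>
          (Finset.univ.filter fun p => y p = (x : X)).card) := by
      rw [Multiset.map_map]
      rfl
    rw [h1, Multiset.map_univ_val_equiv, Finset.univ_eq_attach, Finset.attach_val]
    have h2 : ((im763 y).val.attach.map fun x : {x // x ∈ (im763 y).val} =>
        (Finset.univ.filter fun p => y p = (x : X)).card) =
        ((im763 y).val.attach.map Subtype.val).map fun x =>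
          (Finset.univ.filter fun p => y p = x).card := by
      rw [Multiset.map_map]
      rfl
    exact ((congrArg (Multiset.map fun x => (Finset.univ.filter fun p => y p = x).card)
      (Multiset.attach_map_val (im763 y).val)).symm).trans h2.symm
  obtain ⟨σ, hσ⟩ := perm763 _ _ hmap
  let e : Fin k ≃ {x // x ∈ im763 y} := σ.trans e0
  have hn' : ∀ a, n a = Fintype.card {p : Fin N // (⟨y p, Finset.mem_image_of_mem y (Finset.mem_univ p)⟩ :
      {x // x ∈ im763 y}) = e a} := by
    intro a
    rw [Fintype.card_subtype, hσ]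
    refine congrArg Finset.card (Finset.filter_congr fun p _ => ?_)
    rw [Subtype.ext_iff]
    rfl
  let g : (Σ a, Fin (n a)) ≃ Fin N :=
    ((Equiv.sigmaCongrRight fun a => (Fintype.equivFinOfCardEq (hn' a).symm).symm).trans
      (Equiv.sigmaCongrLeft (β := fun x : {x // x ∈ im763 y} => {p : Fin N //
        (⟨y p, Finset.mem_image_of_mem y (Finset.mem_univ p)⟩ : {x // x ∈ im763 y}) = x}) e)).trans
      (Equiv.sigmaFiberEquiv _)
  have hg : ∀ s : Σ a, Fin (n a), y (g s) = (e s.1 : X) := by
    intro s
    exact congrArg Subtype.val ((Fintype.equivFinOfCardEq (hn' s.1).symm).symm s.2).2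
  refine ⟨E.symm.trans g, fun s t => ?_⟩
  simp only [Equiv.trans_apply, Equiv.symm_apply_apply]
  rw [hg, hg]
  constructor
  · intro h
    exact e.injective (Subtype.ext h)
  · intro h
    rw [h]

end Vale.Agent.P353.Z.ACov
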