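import Vale.Agent.P353.AN.COV.Stmt

/-! # P353, all `N`, block COV, COV3: joint diagonalisation of nine commuting hermitian matrices -/

open Matrix Module Module.End

namespace Vale.Agent.P353.Z.ACov

/-- joint orthonormal eigenbasis -/
theorem dg930_basis {N : ℕ} (X : Fin 9 → Matrix (Fin N) (Fin N) ℂ) (hX : ∀ i, (X i).conjTranspose = X i)
    (hc : ∀ i j, X i * X j = X j * X i) :
    ∃ (b : OrthonormalBasis (Fin N) ℂ (EuclideanSpace ℂ (Fin N))) (y : Fin N → Fin 9 → ℂ),
      ∀ p i, Matrix.toEuclideanLin (X i) (b p) = y p i • b p := by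
  classical
  have hT : ∀ i, (Matrix.toEuclideanLin (X i)).IsSymmetric := fun i =>
    Matrix.isSymmetric_toEuclideanLin_iff.2 (hX i)
  have hC : Pairwise (Function.onFun Commute fun i => Matrix.toEuclideanLin (X i)) := by
    intro i j _
    show Matrix.toEuclideanLin (X i) * Matrix.toEuclideanLin (X j) =
      Matrix.toEuclideanLin (X j) * Matrix.toEuclideanLin (X i)
    have e1 := Matrix.toLpLin_mul_same 2 (X i) (X j)
    have e2 := Matrix.toLpLin_mul_same 2 (X j) (X i)
    rw [hc i j] at e1
    exact e1.symm.trans e2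
  have h1 := LinearMap.IsSymmetric.directSum_isInternal_of_pairwise_commute hT hC
  have h2 := LinearMap.IsSymmetric.orthogonalFamily_iInf_eigenspaces hT
  have h3 : {α : Fin 9 → ℂ | (⨅ j, eigenspace (Matrix.toEuclideanLin (X j)) (α j)) ≠ ⊥}.Finite :=
    WellFoundedGT.finite_ne_bot_of_iSupIndep h1.submodule_iSupIndep
  have h4 := DirectSum.isInternal_ne_bot_iff.2 h1
  have : Fintype {α : Fin 9 → ℂ // (⨅ j, eigenspace (Matrix.toEuclideanLin (X j)) (α j)) ≠ ⊥} := h3.fintype
  have h5 := h2.comp (Subtype.val_injective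
    (p := fun α : Fin 9 → ℂ => (⨅ j, eigenspace (Matrix.toEuclideanLin (X j)) (α j)) ≠ ⊥))
  have hn : finrank ℂ (EuclideanSpace ℂ (Fin N)) = N := by simp
  refine ⟨h4.subordinateOrthonormalBasis hn h5, fun p => (h4.subordinateOrthonormalBasisIndex hn p h5).1, ?_⟩
  intro p i
  have h6 := h4.subordinateOrthonormalBasis_subordinate hn p h5
  exact Module.End.mem_eigenspace_iff.1 ((Submodule.mem_iInf _).1 h6 i)

/-- the matrix of the basis -/
noncomputable def dg930V {N : ℕ} (b : OrthonormalBasis (Fin N) ℂ (EuclideanSpace ℂ (Fin N))) :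
    Matrix (Fin N) (Fin N) ℂ := Matrix.of fun p q => star ((b p) q)

theorem dg930_inner {N : ℕ} (b : OrthonormalBasis (Fin N) ℂ (EuclideanSpace ℂ (Fin N))) (p p' : Fin N) :
    ∑ q, star ((b p) q) * (b p') q = if p = p' then 1 else 0 := by
  have h := (orthonormal_iff_ite.1 b.orthonormal) p p'
  rw [← h, PiLp.inner_apply]
  refine Finset.sum_congr rfl fun q _ => ?_
  rw [RCLike.inner_apply, mul_comm]
  rfl

theorem dg930_unit {N : ℕ} (b : OrthonormalBasis (Fin N) ℂ (EuclideanSpace ℂ (Fin N))) :
    dg930V b * (dg930V b).conjTranspose = 1 := by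
  ext p p'
  rw [Matrix.mul_apply, Matrix.one_apply, ← dg930_inner b p p']
  refine Finset.sum_congr rfl fun q _ => ?_
  rw [Matrix.conjTranspose_apply]
  simp only [dg930V, Matrix.of_apply, star_star]

theorem dg930_diag {N : ℕ} (b : OrthonormalBasis (Fin N) ℂ (EuclideanSpace ℂ (Fin N)))
    (A : Matrix (Fin N) (Fin N) ℂ) (y : Fin N → ℂ)
    (h : ∀ p, Matrix.toEuclideanLin A (b p) = y p • b p) :
    dg930V b * A * (dg930V b).conjTranspose = Matrix.diagonal y := by
  ext p p'
  have h1 : ∀ q, ∑ r, A q r * (b p') r = y p' * (b p') q := by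
    intro q
    have h2 := congrArg (fun v : EuclideanSpace ℂ (Fin N) => v q) (h p')
    exact h2
  have h3 : (dg930V b * A * (dg930V b).conjTranspose) p p' = ∑ q, star ((b p) q) * ∑ r, A q r * (b p') r := by
    rw [Matrix.mul_assoc, Matrix.mul_apply]
    refine Finset.sum_congr rfl fun q _ => ?_
    rw [Matrix.mul_apply]
    simp only [dg930V, Matrix.of_apply, Matrix.conjTranspose_apply, star_star]
  rw [h3]
  simp only [h1]
  have h4 : ∑ q, star ((b p) q) * (y p' * (b p') q) = y p' * ∑ q, star ((b p) q) * (b p') q := by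
    rw [Finset.mul_sum]
    exact Finset.sum_congr rfl fun q _ => by ring
  rw [h4, dg930_inner, Matrix.diagonal_apply]
  by_cases hp : p = p'
  · subst hp
    simp
  · rw [if_neg hp, if_neg hp, mul_zero]

/-- **COV3** -/
theorem diagS : DiagStmt := by
  intro N hN X hX hc
  obtain ⟨b, y, hy⟩ := dg930_basis X hX hc
  have hV := dg930_unit b
  have hD : ∀ i, dg930V b * X i * (dg930V b).conjTranspose = Matrix.diagonal fun p => y p i :=
    fun i => dg930_diag b (X i) (fun p => y p i) fun p => hy p i
  have hreal : ∀ p i, y p i = (((y p i).re : ℝ) : ℂ) := by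
    intro p i
    have h1 := congrArg Matrix.conjTranspose (hD i)
    rw [Matrix.conjTranspose_mul, Matrix.conjTranspose_mul, Matrix.conjTranspose_conjTranspose, hX i,
      ← Matrix.mul_assoc, hD i, Matrix.diagonal_conjTranspose] at h1
    have h2 := congrFun (congrFun h1 p) p
    rw [Matrix.diagonal_apply_eq, Matrix.diagonal_apply_eq] at h2
    exact (Complex.conj_eq_iff_re.1 h2.symm).symm
  have hdet : (dg930V b).det * star (dg930V b).det = 1 := by
    rw [← Matrix.det_conjTranspose, ← Matrix.det_mul, hV, Matrix.det_one]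
  let D : Fin N → ℂ := Function.update (fun _ => 1) ⟨0, hN⟩ (star (dg930V b).det)
  have hD1 : ∀ p, D p * star (D p) = 1 := by
    intro p
    by_cases hp : p = ⟨0, hN⟩
    · subst hp
      simp only [D, Function.update_self, star_star]
      rw [mul_comm]
      exact hdet
    · simp only [D, Function.update_of_ne hp, star_one, mul_one]
  have hDD : Matrix.diagonal D * (Matrix.diagonal D).conjTranspose = 1 := by
    rw [Matrix.diagonal_conjTranspose, Matrix.diagonal_mul_diagonal]
    have : (fun i => D i * star D i) = fun _ => 1 := funext hD1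
    rw [this, Matrix.diagonal_one]
  have hdetD : (Matrix.diagonal D).det = star (dg930V b).det := by
    rw [Matrix.det_diagonal, Finset.prod_eq_single (⟨0, hN⟩ : Fin N)]
    · simp only [D, Function.update_self]
    · intro p _ hp
      simp only [D, Function.update_of_ne hp]
    · intro h
      exact absurd (Finset.mem_univ _) h
  have hmem : Matrix.diagonal D * dg930V b ∈ Matrix.specialUnitaryGroup (Fin N) ℂ := by
    refine Matrix.mem_specialUnitaryGroup_iff.2 ⟨Matrix.mem_unitaryGroup_iff.2 ?_, ?_⟩
    · rw [Matrix.star_eq_conjTranspose, Matrix.conjTranspose_mul, Matrix.mul_assoc,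
        ← Matrix.mul_assoc (dg930V b), hV, Matrix.one_mul, hDD]
    · rw [Matrix.det_mul, hdetD, mul_comm]
      exact hdet
  refine ⟨⟨Matrix.diagonal D * dg930V b, hmem⟩, fun p i => (y p i).re, fun i => ?_⟩
  show Matrix.diagonal D * dg930V b * X i * (Matrix.diagonal D * dg930V b).conjTranspose = _
  have h1 : Matrix.diagonal D * dg930V b * X i * (Matrix.diagonal D * dg930V b).conjTranspose =
      Matrix.diagonal D * (dg930V b * X i * (dg930V b).conjTranspose) * (Matrix.diagonal D).conjTranspose := by
    rw [Matrix.conjTranspose_mul]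
    simp only [Matrix.mul_assoc]
  rw [h1, hD i, Matrix.diagonal_conjTranspose, Matrix.diagonal_mul_diagonal, Matrix.diagonal_mul_diagonal]
  congr 1
  funext p
  have h2 := hD1 p
  calc D p * y p i * star (D p) = (D p * star (D p)) * y p i := by ring
    _ = y p i := by rw [h2, one_mul]
    _ = _ := hreal p i

end Vale.Agent.P353.Z.ACov
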