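import Vale.Agent.P353.AN.COV.Stmt

/-! # P353, all `N`, block COV8, second part: different types are disjoint (prover helper182) -/

open MeasureTheory Filter Topology Matrix
open scoped ContDiff

namespace Vale.Agent.P353.Z.ACov

universe u

variable {N d : ℕ}

/-- the joint values of a frame point separate exactly the blocks -/
theorem dis_sep {k dh dm ds dz : ℕ} {n : Fin k → ℕ} {T : Fin d → Matrix (Fin N) (Fin N) ℂ} {φ : Spl dh dm d}
    {ψ : Spl ds dz dh} (fr : NFr n T φ ψ) (η : Cfg dz) (h : Dif fr η) (s t : Σ a, Fin (n a)) :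
    (fun i => fr.val η i (fr.E.symm (fr.E s)).1) = (fun i => fr.val η i (fr.E.symm (fr.E t)).1) ↔ s.1 = t.1 := by
  simp only [Equiv.symm_apply_apply]
  constructor
  · intro he
    by_contra hne
    obtain ⟨i, hi⟩ := h _ _ hne
    exact hi (congrFun he i)
  · intro he
    rw [he]

theorem disOf {F : Type u} [NormedAddCommGroup F] [InnerProductSpace ℂ F] (M : BFSS.Model N d F) :
    MxStmt M → PtStmt → CombStmt → SpecStmt → DisStmt M := by
  classical
  intro hM hP hC hS hN S hrep k dh dm ds dz n O hO φ ψ fr η hη k' dh' dm' ds' dz' n' O' hO' φ' ψ' fr' η' hη' U Y h h'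
  have hN0 : 0 < N := by omega
  obtain ⟨-, hact, hrot, -⟩ := hM hN0 S hrep
  obtain ⟨-, -, hC3, -⟩ := hC N hN0
  have e1 : ∀ i, mx M.T Y i = Matrix.diagonal fun p => ((fr.val η i (fr.E.symm p).1 : ℝ) : ℂ) := by
    intro i
    rw [← (hrot 1 (by simp) O hO).2.1 Y i, h]
    exact hP N d k dh dm ds dz n (rT M.T O) φ ψ fr η i
  have e2 : ∀ i, mx M.T (M.act U Y) i = Matrix.diagonal fun p => ((fr'.val η' i (fr'.E.symm p).1 : ℝ) : ℂ) := by
    intro i
    rw [← (hrot 1 (by simp) O' hO').2.1 (M.act U Y) i, h']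
    exact hP N d k' dh' dm' ds' dz' n' (rT M.T O') φ' ψ' fr' η' i
  have hU1 : U.val.conjTranspose * U.val = 1 := (Matrix.mem_unitaryGroup_iff').1 (Matrix.specialUnitaryGroup_le_unitaryGroup U.2)
  have hU2 : U.val * U.val.conjTranspose = 1 := (Matrix.mem_unitaryGroup_iff).1 (Matrix.specialUnitaryGroup_le_unitaryGroup U.2)
  have key := hS N U.val hU1 hU2 (fun p i => fr.val η i (fr.E.symm p).1) (fun p i => fr'.val η' i (fr'.E.symm p).1)
    (fun i => by
      have h3 := hact U Y i
      rw [e1, e2] at h3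
      exact h3.symm)
  have k1 := hC3 (Fin 9 → ℝ) (fun p i => fr.val η i (fr.E.symm p).1) k n fr.E fr.pos (fun s t => dis_sep fr η hη s t)
  have k2 := hC3 (Fin 9 → ℝ) (fun p i => fr'.val η' i (fr'.E.symm p).1) k' n' fr'.E fr'.pos (fun s t => dis_sep fr' η' hη' s t)
  rw [← k1, ← k2]
  convert key

end Vale.Agent.P353.Z.ACov
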