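import Vale.Agent.P353.AN.COV.Stmt
import Vale.Agent.P353.AN.NF.RotM
import Vale.Agent.P353.AN.G.Act

/-! # P353, all `N`, block COV: COV1, the matrices of a configuration -/

open MeasureTheory Filter Topology Matrix
open scoped ContDiff

namespace Vale.Agent.P353.Z.ACov

universe u

variable {N d : ℕ} {F : Type u} [NormedAddCommGroup F] [InnerProductSpace ℂ F]

/-- coordinates are traces -/
lemma mx471_tr {T : Fin d → Matrix (Fin N) (Fin N) ℂ} {f : Fin d → Fin d → Fin d → ℝ} (h : Bas N d T f) (x : Cfg d)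
    (i : Fin 9) (A : Fin d) : (T A * mx T x i).trace = ((x (i, A) : ℝ) : ℂ) := by
  unfold mx
  rw [Finset.mul_sum, Matrix.trace_sum]
  have e : ∀ B, (T A * (((x (i, B) : ℝ) : ℂ) • T B)).trace = if A = B then ((x (i, B) : ℝ) : ℂ) else 0 := by
    intro B
    rw [Matrix.mul_smul, Matrix.trace_smul, h.ortho]
    split_ifs
    · rw [smul_eq_mul, mul_one]
    · rw [smul_zero]
  simp only [e, Finset.sum_ite_eq, Finset.mem_univ, if_true]

lemma mx471_inj {T : Fin d → Matrix (Fin N) (Fin N) ℂ} {f : Fin d → Fin d → Fin d → ℝ} (h : Bas N d T f) (x y : Cfg d)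
    (hxy : ∀ i, mx T x i = mx T y i) : x = y := by
  ext ⟨i, A⟩
  have h1 := mx471_tr h x i A
  rw [hxy i, mx471_tr h y i A] at h1
  exact (Complex.ofReal_injective h1).symm

lemma mx471_rox {O : Matrix (Fin d) (Fin d) ℝ} (hO : O * Oᵀ = 1) (T : Fin d → Matrix (Fin N) (Fin N) ℂ) (x : Cfg d)
    (i : Fin 9) : mx (rT T O) (rox 1 O x) i = mx T x i := by
  have e0 : ∀ A, (rox 1 O x) (i, A) = ∑ B, O A B * x (i, B) := by
    intro A
    show ∑ j, ∑ B, (1 : Matrix (Fin 9) (Fin 9) ℝ) i j * O A B * x (j, B) = _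
    rw [Finset.sum_eq_single i]
    · refine Finset.sum_congr rfl fun B _ => ?_
      rw [Matrix.one_apply_eq, one_mul]
    · intro j _ hj
      refine Finset.sum_eq_zero fun B _ => ?_
      rw [Matrix.one_apply_ne hj.symm, zero_mul, zero_mul]
    · intro hh
      exact absurd (Finset.mem_univ _) hh
  have e1 : ∀ A, (((rox 1 O x) (i, A) : ℝ) : ℂ) • rT T O A =
      ∑ B, ((x (i, B) : ℝ) : ℂ) • (((O A B : ℝ) : ℂ) • rT T O A) := by
    intro A
    rw [e0, Complex.ofReal_sum, Finset.sum_smul]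
    refine Finset.sum_congr rfl fun B _ => ?_
    rw [smul_smul, Complex.ofReal_mul, mul_comm]
  unfold mx
  simp only [e1]
  rw [Finset.sum_comm]
  refine Finset.sum_congr rfl fun B _ => ?_
  rw [← Finset.smul_sum]
  congr 1
  exact ANF.rotm_back hO T B

lemma mx471_act (M : BFSS.Model N d F) (hN : 0 < N) (V : BFSS.SU N) (x : Cfg d) (i : Fin 9) :
    mx M.T (M.act V x) i = V.val * mx M.T x i * V.val.conjTranspose := by
  have e0 : ∀ B, (M.act V x) (i, B) = ∑ A, BFSS.adCoeff M.T V B A * x (i, A) := fun B => rfl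
  unfold mx
  simp only [e0]
  rw [Finset.mul_sum, Finset.sum_mul]
  have e1 : ∀ A, V.val * (((x (i, A) : ℝ) : ℂ) • M.T A) * V.val.conjTranspose =
      ∑ B, ((BFSS.adCoeff M.T V B A * x (i, A) : ℝ) : ℂ) • M.T B := by
    intro A
    rw [Matrix.mul_smul, Matrix.smul_mul, AN.G.act_conj M hN, Finset.smul_sum]
    refine Finset.sum_congr rfl fun B _ => ?_
    rw [smul_smul, Complex.ofReal_mul, mul_comm]
  simp only [e1]
  rw [Finset.sum_comm]
  refine Finset.sum_congr rfl fun B _ => ?_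
  rw [Complex.ofReal_sum, Finset.sum_smul]

/-- **COV1** -/
theorem mxS (M : BFSS.Model N d F) : MxStmt M := by
  intro hN S hS
  have hb : Bas N d M.T S.f := by
    rw [hS.hf]
    exact ANF.basM_stmt N d F M
  refine ⟨hb, fun V x i => mx471_act M hN V x i, fun R hR O hO => ?_, fun x i => ⟨?_, ?_⟩⟩
  · have h1 : (1 : Matrix (Fin 9) (Fin 9) ℝ) * (1 : Matrix (Fin 9) (Fin 9) ℝ)ᵀ = 1 := by
      rw [Matrix.transpose_one, Matrix.mul_one]
    obtain ⟨M', hM', hT, -⟩ := ANF.rotM_stmt N d F M S hS O h1 hO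
    have hT' : M'.T = rT M.T O := funext hT
    have hb' : Bas N d (rT M.T O) (S.rot R hR O hO).f := by
      have h2 := ANF.basM_stmt N d F M'
      rw [hT', ← hM'.hf] at h2
      exact h2
    exact ⟨hb', fun x i => mx471_rox hO M.T x i, fun x y hxy => mx471_inj hb' x y hxy⟩
  · unfold mx
    rw [Matrix.conjTranspose_sum]
    refine Finset.sum_congr rfl fun A _ => ?_
    rw [Matrix.conjTranspose_smul, M.T_hermitian]
    congr 1
    exact Complex.conj_ofReal _
  · unfold mx
    rw [Matrix.trace_sum]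
    refine Finset.sum_eq_zero fun A _ => ?_
    rw [Matrix.trace_smul, M.T_traceless, smul_zero]

end Vale.Agent.P353.Z.ACov
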