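import Vale.Agent.P353.AN.COV.Stmt

/-! # P353, all `N`, block COV: COV5 (helper155, hedge) -/

open MeasureTheory Filter Topology Matrix
open scoped ContDiff

namespace Vale.Agent.P353.Z.ACov.C155

theorem permH : PermStmt := by
  intro N hN π
  set ε : Fin N → ℂ := Function.update (fun _ => 1) ⟨0, hN⟩ ((Equiv.Perm.sign π : ℤ) : ℂ) with hε
  have hsq : (((Equiv.Perm.sign π : ℤˣ) : ℤ) : ℂ) * (((Equiv.Perm.sign π : ℤˣ) : ℤ) : ℂ) = 1 := by
    rw [← Int.cast_mul, ← Units.val_mul, Int.units_mul_self]
    simp
  have hε1 : ∀ p, ε p * star (ε p) = 1 := by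
    intro p
    by_cases hp : p = ⟨0, hN⟩
    · subst hp
      simp only [hε, Function.update_self]
      have : star ((((Equiv.Perm.sign π : ℤˣ) : ℤ) : ℂ)) = (((Equiv.Perm.sign π : ℤˣ) : ℤ) : ℂ) := by
        simp
      rw [this]
      exact hsq
    · simp only [hε, Function.update_of_ne hp, star_one, mul_one]
  have hdet : (Matrix.diagonal ε).det = (((Equiv.Perm.sign π : ℤˣ) : ℤ) : ℂ) := by
    rw [Matrix.det_diagonal, Finset.prod_eq_single (⟨0, hN⟩ : Fin N)]
    · simp only [hε, Function.update_self]
    · intro p _ hp
      simp only [hε, Function.update_of_ne hp]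
    · intro h
      exact absurd (Finset.mem_univ _) h
  -- permutation matrix
  set R : Matrix (Fin N) (Fin N) ℂ := Matrix.of fun p q => if p = π q then 1 else 0 with hR
  have hRR : ∀ y : Fin N → ℂ, R * Matrix.diagonal (fun p => y (π p)) * R.conjTranspose = Matrix.diagonal y := by
    intro y
    ext p p'
    rw [Matrix.mul_apply]
    have e : ∀ q, (R * Matrix.diagonal fun p => y (π p)) p q * R.conjTranspose q p' =
        if p' = π q then (if p = p' then y p else 0) else 0 := by
      intro q
      rw [Matrix.mul_diagonal, Matrix.conjTranspose_apply]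
      simp only [hR, Matrix.of_apply]
      by_cases h1 : p' = π q
      · by_cases h2 : p = p'
        · subst h2
          simp [h1]
        · have h3 : p ≠ π q := fun h => h2 (h.trans h1.symm)
          simp [h2, h3]
      · simp [h1]
    rw [Finset.sum_congr rfl fun q _ => e q]
    have e2 : ∀ q, (if p' = π q then (if p = p' then y p else 0) else 0) =
        if q = π.symm p' then (if p = p' then y p else 0) else 0 := by
      intro q
      have : p' = π q ↔ q = π.symm p' := by
        constructor
        · intro h
          rw [h, Equiv.symm_apply_apply]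
        · intro h
          rw [h, Equiv.apply_symm_apply]
      simp only [this]
    rw [Finset.sum_congr rfl fun q _ => e2 q, Finset.sum_ite_eq' Finset.univ (π.symm p'), if_pos (Finset.mem_univ _),
      Matrix.diagonal_apply]
  have hRdet : R.det = (((Equiv.Perm.sign π : ℤˣ) : ℤ) : ℂ) := by
    have h1 : R = (Equiv.Perm.permMatrix ℂ π⁻¹) := by
      ext p q
      simp only [hR, Matrix.of_apply, Equiv.Perm.permMatrix, PEquiv.toMatrix_apply, Equiv.toPEquiv_apply, Option.mem_def,
        Option.some.injEq]
      have : p = π q ↔ π⁻¹ p = q := by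
        rw [Equiv.Perm.inv_eq_iff_eq]
      simp only [this]
    rw [h1, Matrix.det_permutation, Equiv.Perm.sign_inv]
  have hU : (Matrix.diagonal ε * R) * (Matrix.diagonal ε * R).conjTranspose = 1 := by
    rw [Matrix.conjTranspose_mul]
    have h1 : R * R.conjTranspose = 1 := by
      have := hRR fun _ => 1
      rw [show (Matrix.diagonal fun _ : Fin N => (1 : ℂ)) = 1 from Matrix.diagonal_one, Matrix.mul_one] at this
      exact this
    calc Matrix.diagonal ε * R * (R.conjTranspose * (Matrix.diagonal ε).conjTranspose)
        = Matrix.diagonal ε * (R * R.conjTranspose) * (Matrix.diagonal ε).conjTranspose := by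
          simp only [Matrix.mul_assoc]
      _ = 1 := by
          rw [h1, Matrix.mul_one, Matrix.diagonal_conjTranspose, Matrix.diagonal_mul_diagonal]
          have : (fun i => ε i * star ε i) = fun _ => 1 := funext hε1
          rw [this, Matrix.diagonal_one]
  have hmem : Matrix.diagonal ε * R ∈ Matrix.specialUnitaryGroup (Fin N) ℂ := by
    refine Matrix.mem_specialUnitaryGroup_iff.2 ⟨Matrix.mem_unitaryGroup_iff.2 hU, ?_⟩
    rw [Matrix.det_mul, hdet, hRdet]
    exact hsq
  refine ⟨⟨Matrix.diagonal ε * R, hmem⟩, fun y => ?_⟩
  show Matrix.diagonal ε * R * Matrix.diagonal (fun p => y (π p)) * (Matrix.diagonal ε * R).conjTranspose = _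
  rw [Matrix.conjTranspose_mul]
  calc Matrix.diagonal ε * R * Matrix.diagonal (fun p => y (π p)) * (R.conjTranspose * (Matrix.diagonal ε).conjTranspose)
      = Matrix.diagonal ε * (R * Matrix.diagonal (fun p => y (π p)) * R.conjTranspose) * (Matrix.diagonal ε).conjTranspose := by
        simp only [Matrix.mul_assoc]
    _ = Matrix.diagonal y := by
        rw [hRR, Matrix.diagonal_conjTranspose, Matrix.diagonal_mul_diagonal, Matrix.diagonal_mul_diagonal]
        congr 1
        funext p
        have h2 := hε1 p
        calc ε p * y p * star (ε p) = (ε p * star (ε p)) * y p := by ring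
          _ = y p := by rw [h2, one_mul]

end Vale.Agent.P353.Z.ACov.C155
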