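import Vale.Agent.P353.AN.COV.Stmt

/-! # P353, all `N`, block COV: COV2 (helper155, hedge) -/

open MeasureTheory Filter Topology Matrix
open scoped ContDiff

namespace Vale.Agent.P353.Z.ACov.C155

theorem ptH : PtStmt := by
  intro N d k dh dm ds dz n T φ ψ fr η i
  unfold mx
  rw [← Equiv.sum_comp φ, Fintype.sum_sum_type, ← Equiv.sum_comp ψ, Fintype.sum_sum_type]
  have e1 : ∀ A, (((emb φ (AD.cmb ψ 0 η) 0) (i, φ (Sum.inl (ψ (Sum.inl A)))) : ℝ) : ℂ) = 0 := by
    intro A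
    simp [emb, AD.cmb]
  have e2 : ∀ B, (((emb φ (AD.cmb ψ 0 η) 0) (i, φ (Sum.inl (ψ (Sum.inr B)))) : ℝ) : ℂ) = ((η (i, B) : ℝ) : ℂ) := by
    intro B
    simp [emb, AD.cmb]
  have e3 : ∀ C, (((emb φ (AD.cmb ψ 0 η) 0) (i, φ (Sum.inr C)) : ℝ) : ℂ) = 0 := by
    intro C
    simp only [emb, PiLp.toLp_apply, Equiv.symm_apply_apply, Sum.elim_inr]
    refine Fin.lastCases ?_ (fun j => ?_) i
    · rw [Fin.lastCases_last, Complex.ofReal_zero]
    · rw [Fin.lastCases_castSucc]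
      simp
  simp only [e1, e2, e3, zero_smul, Finset.sum_const_zero, zero_add, add_zero, fr.z_eq]
  ext p p'
  rw [Matrix.sum_apply, Matrix.diagonal_apply]
  simp only [Matrix.smul_apply, bd, Matrix.submatrix_apply, Matrix.diagonal_apply, EmbeddingLike.apply_eq_iff_eq]
  by_cases hp : p = p'
  · subst hp
    simp only [if_true, NFr.val]
    push_cast
    rfl
  · simp [hp]

end Vale.Agent.P353.Z.ACov.C155
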