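import Vale.Agent.P353.AN.COV.Stmt

/-! # P353, all `N`, block COV: COV7 (helper155, hedge) -/

open MeasureTheory Filter Topology Matrix
open scoped ContDiff

namespace Vale.Agent.P353.Z.ACov.C155

lemma spec_entry {N : ℕ} (U : Matrix (Fin N) (Fin N) ℂ) (h1 : U.conjTranspose * U = 1) (y y' : Fin N → Fin 9 → ℝ)
    (h : ∀ i, U * (Matrix.diagonal fun p => ((y p i : ℝ) : ℂ)) * U.conjTranspose = Matrix.diagonal fun p => ((y' p i : ℝ) : ℂ))
    (p q : Fin N) (hpq : U p q ≠ 0) : y q = y' p := by
  funext i
  have h2 : U * (Matrix.diagonal fun p => ((y p i : ℝ) : ℂ)) = (Matrix.diagonal fun p => ((y' p i : ℝ) : ℂ)) * U := by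
    rw [← h i, Matrix.mul_assoc, h1, Matrix.mul_one]
  have h3 := congrFun (congrFun h2 p) q
  rw [Matrix.mul_diagonal, Matrix.diagonal_mul, mul_comm] at h3
  have h4 := mul_right_cancel₀ hpq h3
  exact_mod_cast h4

open Classical in
lemma spec_card {N : ℕ} (U : Matrix (Fin N) (Fin N) ℂ) (h1 : U.conjTranspose * U = 1) (h2 : U * U.conjTranspose = 1)
    (y y' : Fin N → Fin 9 → ℝ)
    (h : ∀ i, U * (Matrix.diagonal fun p => ((y p i : ℝ) : ℂ)) * U.conjTranspose = Matrix.diagonal fun p => ((y' p i : ℝ) : ℂ))
    (v : Fin 9 → ℝ) : (Finset.univ.filter fun p => y p = v).card = (Finset.univ.filter fun p => y' p = v).card := by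
  have e1 : ∀ q, ∑ p, star (U p q) * U p q = 1 := by
    intro q
    have := congrFun (congrFun h1 q) q
    rw [Matrix.mul_apply, Matrix.one_apply_eq] at this
    exact this
  have e2 : ∀ p, ∑ q, U p q * star (U p q) = 1 := by
    intro p
    have := congrFun (congrFun h2 p) p
    rw [Matrix.mul_apply, Matrix.one_apply_eq] at this
    exact this
  have f1 : (((Finset.univ.filter fun p => y p = v).card : ℕ) : ℂ) =
      ∑ q, ∑ p, (if y q = v then 1 else 0) * (star (U p q) * U p q) := by
    rw [Finset.card_filter]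
    push_cast
    refine Finset.sum_congr rfl fun q _ => ?_
    rw [← Finset.mul_sum, e1 q, mul_one]
  have f2 : (((Finset.univ.filter fun p => y' p = v).card : ℕ) : ℂ) =
      ∑ p, ∑ q, (if y' p = v then 1 else 0) * (U p q * star (U p q)) := by
    rw [Finset.card_filter]
    push_cast
    refine Finset.sum_congr rfl fun p _ => ?_
    rw [← Finset.mul_sum, e2 p, mul_one]
  have f3 : (((Finset.univ.filter fun p => y p = v).card : ℕ) : ℂ) =
      (((Finset.univ.filter fun p => y' p = v).card : ℕ) : ℂ) := by
    rw [f1, f2, Finset.sum_comm]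
    refine Finset.sum_congr rfl fun p _ => Finset.sum_congr rfl fun q _ => ?_
    by_cases hz : U p q = 0
    · rw [hz]
      simp
    · rw [spec_entry U h1 y y' h p q hz, mul_comm (star (U p q))]
  exact_mod_cast f3

theorem specH : SpecStmt := by
  classical
  intro N U h1 h2 y y' h
  have hc := spec_card U h1 h2 y y' h
  unfold fsz
  have himg : Finset.univ.image y = Finset.univ.image y' := by
    ext v
    have a1 : v ∈ Finset.univ.image y ↔ 0 < (Finset.univ.filter fun p => y p = v).card := by
      rw [Finset.card_pos]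
      constructor
      · intro hv
        obtain ⟨p, -, hp⟩ := Finset.mem_image.1 hv
        exact ⟨p, Finset.mem_filter.2 ⟨Finset.mem_univ _, hp⟩⟩
      · rintro ⟨p, hp⟩
        exact Finset.mem_image.2 ⟨p, Finset.mem_univ _, (Finset.mem_filter.1 hp).2⟩
    have a2 : v ∈ Finset.univ.image y' ↔ 0 < (Finset.univ.filter fun p => y' p = v).card := by
      rw [Finset.card_pos]
      constructor
      · intro hv
        obtain ⟨p, -, hp⟩ := Finset.mem_image.1 hv
        exact ⟨p, Finset.mem_filter.2 ⟨Finset.mem_univ _, hp⟩⟩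
      · rintro ⟨p, hp⟩
        exact Finset.mem_image.2 ⟨p, Finset.mem_univ _, (Finset.mem_filter.1 hp).2⟩
    rw [a1, a2, hc v]
  have hfun : (fun a => (Finset.univ.filter fun p => y p = a).card) = fun a => (Finset.univ.filter fun p => y' p = a).card := by
    funext a
    exact hc a
  convert congrArg₂ (fun (s : Finset (Fin 9 → ℝ)) f => s.val.map f) himg hfun using 1

end Vale.Agent.P353.Z.ACov.C155
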