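import Vale.Agent.P353.AN.COV.Stmt

/-! # P353, all `N`, block COV: zeros of the potential are commuting tuples (COV4) -/

open MeasureTheory Filter Topology Matrix

namespace Vale.Agent.P353.Z.ACov

universe u

theorem vcom_aux {N d : ℕ} (T : Fin d → Matrix (Fin N) (Fin N) ℂ) (f : Fin d → Fin d → Fin d → ℝ)
    (hc : ∀ A B, T A * T B - T B * T A = ∑ C, (Complex.I * (f A B C : ℂ)) • T C) (y z : Fin d → ℝ)
    (h0 : ∀ C, ∑ A, ∑ B, f A B C * y A * z B = 0) :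
    (∑ A, ((y A : ℝ) : ℂ) • T A) * (∑ A, ((z A : ℝ) : ℂ) • T A) =
      (∑ A, ((z A : ℝ) : ℂ) • T A) * (∑ A, ((y A : ℝ) : ℂ) • T A) := by
  rw [← sub_eq_zero]
  have e1 : (∑ A, ((y A : ℝ) : ℂ) • T A) * (∑ A, ((z A : ℝ) : ℂ) • T A) =
      ∑ A, ∑ B, (((y A : ℝ) : ℂ) * ((z B : ℝ) : ℂ)) • (T A * T B) := by
    rw [Finset.sum_mul_sum]
    refine Finset.sum_congr rfl fun A _ => Finset.sum_congr rfl fun B _ => ?_
    rw [smul_mul_assoc, mul_smul_comm, smul_smul]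
  have e2 : (∑ A, ((z A : ℝ) : ℂ) • T A) * (∑ A, ((y A : ℝ) : ℂ) • T A) =
      ∑ A, ∑ B, (((y A : ℝ) : ℂ) * ((z B : ℝ) : ℂ)) • (T B * T A) := by
    rw [Finset.sum_mul_sum, Finset.sum_comm]
    refine Finset.sum_congr rfl fun A _ => Finset.sum_congr rfl fun B _ => ?_
    rw [smul_mul_assoc, mul_smul_comm, smul_smul, mul_comm]
  rw [e1, e2, ← Finset.sum_sub_distrib]
  have e3 : ∀ A, ∑ B, (((y A : ℝ) : ℂ) * ((z B : ℝ) : ℂ)) • (T A * T B) -
      ∑ B, (((y A : ℝ) : ℂ) * ((z B : ℝ) : ℂ)) • (T B * T A) =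
      ∑ C, ∑ B, ((((y A : ℝ) : ℂ) * ((z B : ℝ) : ℂ)) * (Complex.I * (f A B C : ℂ))) • T C := by
    intro A
    rw [← Finset.sum_sub_distrib, Finset.sum_comm]
    refine Finset.sum_congr rfl fun B _ => ?_
    rw [← smul_sub, hc, Finset.smul_sum]
    refine Finset.sum_congr rfl fun C _ => ?_
    rw [smul_smul]
  rw [Finset.sum_congr rfl fun A _ => e3 A, Finset.sum_comm]
  refine Finset.sum_eq_zero fun C _ => ?_
  have e4 : ∑ A, ∑ B, ((((y A : ℝ) : ℂ) * ((z B : ℝ) : ℂ)) * (Complex.I * (f A B C : ℂ))) = 0 := by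
    have h1 : ((∑ A, ∑ B, f A B C * y A * z B : ℝ) : ℂ) = 0 := by rw [h0 C]; simp
    calc ∑ A, ∑ B, ((((y A : ℝ) : ℂ) * ((z B : ℝ) : ℂ)) * (Complex.I * (f A B C : ℂ)))
        = Complex.I * ((∑ A, ∑ B, f A B C * y A * z B : ℝ) : ℂ) := by
          push_cast
          rw [Finset.mul_sum]
          refine Finset.sum_congr rfl fun A _ => ?_
          rw [Finset.mul_sum]
          refine Finset.sum_congr rfl fun B _ => ?_
          ring
      _ = 0 := by rw [h1, mul_zero]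
  simp_rw [← Finset.sum_smul]
  rw [e4, zero_smul]

/-- **COV4** zeros of the potential are commuting tuples. -/
theorem vcomS {d : ℕ} {F : Type u} [NormedAddCommGroup F] [InnerProductSpace ℂ F] (S : Setup d F) :
    VcomStmt S := by
  intro N T hT Y hV i j
  refine vcom_aux T S.f hT.comm (fun A => Y (i, A)) (fun A => Y (j, A)) ?_
  intro C
  have h0 : ∑ A, ∑ i, ∑ j, (S.FF A i j Y) ^ 2 = 0 := by
    have : (1 / 4 : ℝ) * ∑ A, ∑ i, ∑ j, (S.FF A i j Y) ^ 2 = 0 := hV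
    linarith
  have h1 := (Finset.sum_eq_zero_iff_of_nonneg (fun A _ =>
    Finset.sum_nonneg fun i _ => Finset.sum_nonneg fun j _ => sq_nonneg _)).1 h0
  have h2 := (Finset.sum_eq_zero_iff_of_nonneg (fun i _ =>
    Finset.sum_nonneg fun j _ => sq_nonneg _)).1 (h1 C (Finset.mem_univ C))
  have h3 := (Finset.sum_eq_zero_iff_of_nonneg (fun j _ => sq_nonneg _)).1 (h2 i (Finset.mem_univ i))
  have h4 : S.FF C i j Y = 0 := pow_eq_zero_iff (two_ne_zero) |>.1 (h3 j (Finset.mem_univ j))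
  have h5 : ∑ A, ∑ B, S.f C A B * Y (i, A) * Y (j, B) = 0 :=
    (mul_eq_zero.1 h4).resolve_left S.κ_pos.ne'
  rw [← h5]
  exact Finset.sum_congr rfl fun A _ => Finset.sum_congr rfl fun B _ => by rw [S.f_cyc C A B]

end Vale.Agent.P353.Z.ACov
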