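import Vale.Agent.P353.AN.COV.All
import Vale.Agent.P353.AN.COV.Mx
import Vale.Agent.P353.AN.COV.Comb
import Vale.Agent.P353.AN.COV.Diag
import Vale.Agent.P353.AN.COV.Vcom
import Vale.Agent.P353.AN.COV.SpecH
import Vale.Agent.P353.AN.COV.PermH
import Vale.Agent.P353.AN.COV.PtH
import Vale.Agent.P353.AN.NF.Val

/-! # P353, all `N`, block COV: the unconditional theorems `covM`, `disM` (helper155) -/

open MeasureTheory Filter Topology Matrix
open scoped ContDiff

namespace Vale.Agent.P353.Z.ACov

universe u

variable {N d : ℕ} {F : Type u} [NormedAddCommGroup F] [InnerProductSpace ℂ F]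

/-- **COV** both parts -/
theorem covDisM (M : BFSS.Model N d F) : CovStmt M ∧ DisStmt M :=
  covOf M (mxS M) C155.ptH diagS (fun S => vcomS S) C155.permH combS C155.specH
    (fun _ _ _ _ _ _ _ _ _ f fr => ANF.val_stmt f fr)

/-- **COV** first part: every commuting tuple reaches a frame point -/
theorem covM (M : BFSS.Model N d F) : CovStmt M := (covDisM M).1

/-- **COV** second part: points of different types are not conjugate -/
theorem disM (M : BFSS.Model N d F) : DisStmt M := (covDisM M).2

end Vale.Agent.P353.Z.ACov
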