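import Vale.Agent.P353.AN.NF.Defs
import Vale.Agent.P353.AN.D.StmtL
import Vale.Agent.P353.AN.GL.Stmt

/-! # P353, all `N`, block COV: every commuting tuple reaches a frame point, different types are disjoint (architect helper725)

Frames: `NFr n T φ ψ` of `AN/NF/Defs.lean` (helper679; `ψ : Spl ds dz dh`, `inl` = `s`, `inr` = centre, as in block D). Matrices `X_i(x) = ∑_A x_i^A T_A`.
A prover delivers `theorem <name> … : <Stmt> …` in `Vale/Agent/P353/AN/COV/<File>.lean`, sorry free, standard axioms, less than 60 s per file. -/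

open MeasureTheory Filter Topology Matrix
open scoped ContDiff

namespace Vale.Agent.P353.Z.ACov

universe u

variable {N d dh dm ds dz k : ℕ}

/-- rotated basis -/
noncomputable def rT (T : Fin d → Matrix (Fin N) (Fin N) ℂ) (O : Matrix (Fin d) (Fin d) ℝ) (A : Fin d) :
    Matrix (Fin N) (Fin N) ℂ := ∑ B, ((O A B : ℝ) : ℂ) • T B

/-- the nine matrices of `x` -/
noncomputable def mx (T : Fin d → Matrix (Fin N) (Fin N) ℂ) (x : Cfg d) (i : Fin 9) : Matrix (Fin N) (Fin N) ℂ :=
  ∑ A, ((x (i, A) : ℝ) : ℂ) • T A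

/-- multiset of the fibre sizes of `y` -/
def fsz {X : Type*} [DecidableEq X] (y : Fin N → X) : Multiset ℕ :=
  (Finset.univ.image y).val.map fun a => (Finset.univ.filter fun p => y p = a).card

/-- the values of the frame point `η` differ for different blocks -/
def Dif {n : Fin k → ℕ} {T : Fin d → Matrix (Fin N) (Fin N) ℂ} {φ : Spl dh dm d} {ψ : Spl ds dz dh} (fr : NFr n T φ ψ) (η : Cfg dz) : Prop :=
  ∀ a b, a ≠ b → ∃ i, fr.val η i a ≠ fr.val η i b

/-- **COV1** matrices: the basis of a model, the action, rotated frames, injectivity. PROOF. `basM_stmt` (`AN/NF/RotM.lean`), `Rep.hf`; `act_conj` (`AN/G/Act.lean`); `OᵀO = 1`;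
linear independence of `T` (`ortho`). -/
def MxStmt {F : Type u} [NormedAddCommGroup F] [InnerProductSpace ℂ F] (M : BFSS.Model N d F) : Prop := 0 < N → ∀ S : Setup d F, U.Rep M S →
  Bas N d M.T S.f ∧ (∀ (U : BFSS.SU N) (x : Cfg d) (i : Fin 9), mx M.T (M.act U x) i = U.val * mx M.T x i * U.val.conjTranspose) ∧
  (∀ (R : Matrix (Fin 9) (Fin 9) ℝ) (hR : R * R.transpose = 1) (O : Matrix (Fin d) (Fin d) ℝ) (hO : O * O.transpose = 1),
    Bas N d (rT M.T O) (S.rot R hR O hO).f ∧ (∀ x i, mx (rT M.T O) (rox 1 O x) i = mx M.T x i) ∧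
    ∀ x y : Cfg d, (∀ i, mx (rT M.T O) x i = mx (rT M.T O) y i) → x = y) ∧
  ∀ (x : Cfg d) (i : Fin 9), (mx M.T x i).conjTranspose = mx M.T x i ∧ (mx M.T x i).trace = 0

/-- **COV2** scalar points of a frame: matrices. PROOF: `z_eq`, definition of `emb`, `AD.cmb`; then `bd` is diagonal in the positions `E s`. -/
def PtStmt : Prop := ∀ (N d k dh dm ds dz : ℕ) (n : Fin k → ℕ) (T : Fin d → Matrix (Fin N) (Fin N) ℂ) (φ : Spl dh dm d) (ψ : Spl ds dz dh)
  (fr : NFr n T φ ψ) (η : Cfg dz) (i : Fin 9),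
    mx T (emb φ (AD.cmb ψ 0 η) 0) i = Matrix.diagonal fun p => ((fr.val η i (fr.E.symm p).1 : ℝ) : ℂ)

/-- **COV3** joint diagonalisation. PROOF. `S.V Y = 0` gives `[X_i,X_j] = 0` (`Bas.comm`, the `FF` vanish, cf. `Std2A.comm_of_V` in `AN/D/Std2.lean`); nine commuting hermitian matrices have
an orthonormal basis of joint eigenvectors (`LinearMap.IsSymmetric.directSum_isInternal_of_pairwise_commute`, `Mathlib.Analysis.InnerProductSpace.JointEigenspace`; or: by induction on the
number of matrices, diagonalising on the joint eigenspaces; or: induction on `N` via a joint eigenvector and its orthogonal complement); multiply one basis vector by a phase to get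
determinant `1`. -/
def DiagStmt : Prop := ∀ (N : ℕ), 0 < N → ∀ X : Fin 9 → Matrix (Fin N) (Fin N) ℂ, (∀ i, (X i).conjTranspose = X i) →
  (∀ i j, X i * X j = X j * X i) →
    ∃ (V : BFSS.SU N) (y : Fin N → Fin 9 → ℝ), ∀ i, V.val * X i * V.val.conjTranspose = Matrix.diagonal fun p => ((y p i : ℝ) : ℂ)

/-- **COV4** zeros of the potential are commuting tuples. PROOF: see COV3 (`S.κ_pos`, `Setup.V`, `Setup.FF`). -/
def VcomStmt {F : Type u} [NormedAddCommGroup F] [InnerProductSpace ℂ F] (S : Setup d F) : Prop :=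
  ∀ (N : ℕ) (T : Fin d → Matrix (Fin N) (Fin N) ℂ), Bas N d T S.f → ∀ Y : Cfg d, S.V Y = 0 → ∀ i j, mx T Y i * mx T Y j = mx T Y j * mx T Y i

/-- **COV5** permutations in `SU(N)`. PROOF: permutation matrix with one row multiplied by the sign of `π`. -/
def PermStmt : Prop := ∀ (N : ℕ), 0 < N → ∀ π : Equiv.Perm (Fin N), ∃ P : BFSS.SU N, ∀ y : Fin N → ℂ,
  P.val * Matrix.diagonal (fun p => y (π p)) * P.val.conjTranspose = Matrix.diagonal y

/-- **COV6** fibre sizes and partitions. PROOF. (1) `∑` of the fibre sizes is `N` (`Finset.card_eq_sum_card_image`), fibres over the image are not empty. (2) all `n_a ≥ 1`: the fibre sizes of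
`p ↦ (E.symm p).1` are the `n_a`; equal multisets of fibre sizes: a bijection of `Fin k` with the image of `y` preserving the sizes, bijections of the fibres. (3) if `y` separates
exactly the blocks, its fibre sizes are the `n_a`. (4) `∑` and `card` of a multiset; `Nat.Partition.parts_pos`; `n` is a listing of `p.parts`. -/
def CombStmt : Prop := ∀ N : ℕ, 0 < N → (∀ (X : Type) [DecidableEq X] (y : Fin N → X), ∃ p : Nat.Partition N, p.parts = fsz y) ∧
  (∀ (X : Type) [DecidableEq X] (y : Fin N → X) (k : ℕ) (n : Fin k → ℕ) (E : (Σ a, Fin (n a)) ≃ Fin N), (∀ a, 1 ≤ n a) →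
    Finset.univ.val.map n = fsz y → ∃ π : Equiv.Perm (Fin N), ∀ s t : Σ a, Fin (n a), y (π (E s)) = y (π (E t)) ↔ s.1 = t.1) ∧
  (∀ (X : Type) [DecidableEq X] (y : Fin N → X) (k : ℕ) (n : Fin k → ℕ) (E : (Σ a, Fin (n a)) ≃ Fin N), (∀ a, 1 ≤ n a) →
    (∀ s t : Σ a, Fin (n a), y (E s) = y (E t) ↔ s.1 = t.1) → fsz y = Finset.univ.val.map n) ∧
  (∀ p : Nat.Partition N, ∃ n : Fin (Multiset.card p.parts) → ℕ, Finset.univ.val.map n = p.parts ∧ (∀ a, 1 ≤ n a) ∧ ∑ a, n a = N) ∧
  (∀ (X : Type) [DecidableEq X] (y : Fin N → X), Multiset.card (fsz y) < 2 → ∀ p q, y p = y q) ∧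
  ∃ p₀ : Nat.Partition N, Multiset.card p₀.parts = 1 ∧ ∀ p : Nat.Partition N, p ≠ p₀ ↔ 2 ≤ Multiset.card p.parts

open Classical in
/-- **COV7** unitarily equivalent diagonal tuples have the same fibre sizes. PROOF. For `v : Fin 9 → ℝ` the joint eigenspace `{w | ∀ i, X_iw = v_iw}` of the diagonal tuple `y` is
`{w | ∀ p, y p ≠ v → w p = 0}`, of dimension `card {p | y p = v}`; `U` maps one to the other. So `card {p | y p = v} = card {p | y' p = v}` for all `v`. -/
def SpecStmt : Prop := ∀ (N : ℕ) (U : Matrix (Fin N) (Fin N) ℂ), U.conjTranspose * U = 1 → U * U.conjTranspose = 1 → ∀ y y' : Fin N → Fin 9 → ℝ,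
  (∀ i, U * (Matrix.diagonal fun p => ((y p i : ℝ) : ℂ)) * U.conjTranspose = Matrix.diagonal fun p => ((y' p i : ℝ) : ℂ)) → fsz y = fsz y'

/-- **COV** OUTPUT, first part: every commuting `Y ≠ 0` has a partition `p` with at least two parts such that it is conjugate to a point with different block values of EVERY frame
of type `p` (in any colour frame `O`). PROOF. COV1, COV4, COV3: `V X_i(Y) V* = diag(y)`; `p.parts = fsz y` (COV6); `y` is not constant (`∑_py p i = tr = 0` and `Y ≠ 0`, COV1), so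
`2 ≤ card p.parts`. Given a frame: `π` of COV6 (2), `P` of COV5 with `P diag(y ∘ π) … `: `(PV)X_i(PV)* = diag(y(π ·))` (use COV5 for `π⁻¹`), constant on the blocks, different on different blocks,
weighted sums `0`: `ANF.ValStmt` (second part) gives `η`, COV2 and the injectivity in COV1 give the equality. -/
def CovStmt {F : Type u} [NormedAddCommGroup F] [InnerProductSpace ℂ F] (M : BFSS.Model N d F) : Prop := 2 ≤ N →
  ∀ S : Setup d F, U.Rep M S → ∀ Y : Cfg d, Y ≠ 0 → S.V Y = 0 → ∃ p : Nat.Partition N, 2 ≤ Multiset.card p.parts ∧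
    ∀ (k dh dm ds dz : ℕ) (n : Fin k → ℕ) (O : Matrix (Fin d) (Fin d) ℝ) (_ : O * O.transpose = 1) (φ : Spl dh dm d) (ψ : Spl ds dz dh)
      (fr : NFr n (rT M.T O) φ ψ), Finset.univ.val.map n = p.parts →
      ∃ (U : BFSS.SU N) (η : Cfg dz), Dif fr η ∧ rox 1 O (M.act U Y) = emb φ (AD.cmb ψ 0 η) 0

/-- **COV** OUTPUT, second part: points with different block values of frames of different types are not conjugate. PROOF. COV1, COV2: `X_i(Y) = diag(y)`, `X_i(act U Y) = diag(y')`,
COV6 (3): `fsz y`, `fsz y'` are the types, COV7. -/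
def DisStmt {F : Type u} [NormedAddCommGroup F] [InnerProductSpace ℂ F] (M : BFSS.Model N d F) : Prop := 2 ≤ N →
  ∀ S : Setup d F, U.Rep M S →
    ∀ (k dh dm ds dz : ℕ) (n : Fin k → ℕ) (O : Matrix (Fin d) (Fin d) ℝ) (_ : O * O.transpose = 1) (φ : Spl dh dm d) (ψ : Spl ds dz dh)
      (fr : NFr n (rT M.T O) φ ψ) (η : Cfg dz), Dif fr η →
    ∀ (k' dh' dm' ds' dz' : ℕ) (n' : Fin k' → ℕ) (O' : Matrix (Fin d) (Fin d) ℝ) (_ : O' * O'.transpose = 1) (φ' : Spl dh' dm' d)
      (ψ' : Spl ds' dz' dh') (fr' : NFr n' (rT M.T O') φ' ψ') (η' : Cfg dz'), Dif fr' η' →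
    ∀ (U : BFSS.SU N) (Y : Cfg d), rox 1 O Y = emb φ (AD.cmb ψ 0 η) 0 → rox 1 O' (M.act U Y) = emb φ' (AD.cmb ψ' 0 η') 0 →
      Finset.univ.val.map n = Finset.univ.val.map n'

/-- **COV8** assembly of both parts -/
def CovOfStmt {F : Type u} [NormedAddCommGroup F] [InnerProductSpace ℂ F] (M : BFSS.Model N d F) : Prop :=
  MxStmt M → PtStmt → DiagStmt → (∀ S : Setup d F, VcomStmt S) → PermStmt → CombStmt → SpecStmt →
  (∀ (k dh dm ds dz : ℕ) (n : Fin k → ℕ) (T : Fin d → Matrix (Fin N) (Fin N) ℂ) (φ : Spl dh dm d) (ψ : Spl ds dz dh)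
    (f : Fin d → Fin d → Fin d → ℝ) (fr : NFr n T φ ψ), ANF.ValStmt f fr) → CovStmt M ∧ DisStmt M

end Vale.Agent.P353.Z.ACov
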